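import Vale.Agent.N256b.Defs
import Vale.Agent.N256.Expl

/-! P256: comparison of the definitions, and dual cones. -/

namespace Vale.Agent.N256b

open MvPolynomial Vale.Agent.P256 Vale.Agent.N256 Matrix

variable {σ : Type} {n : ℕ}

theorem eval_restr (p : MvPolynomial σ ℝ) (e x : σ → ℝ) (t : ℝ) :
    (restr p e x).eval t = eval (t • e - x) p := by
  unfold restr
  induction p using MvPolynomial.induction_on with
  | C a => simp
  | add p q hp hq => simp only [map_add, Polynomial.eval_add, hp, hq]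
  | mul_X p i hp =>
    simp only [map_mul, Polynomial.eval_mul, hp, aeval_X, eval_X, Polynomial.eval_sub,
      Polynomial.eval_C, Polynomial.eval_X, Pi.sub_apply, Pi.smul_apply, smul_eq_mul]
    ring

theorem restr_eq (p : MvPolynomial (Fin n) ℝ) (e x : Fin n → ℝ) :
    restr p e x = line p (-x) e := by
  apply Polynomial.funext
  intro t
  rw [eval_restr, eval_line]
  congr 2
  abel

theorem hyp_iff {p : MvPolynomial (Fin n) ℝ} {e : Fin n → ℝ} :
    Hyperbolic p e ↔ IsHyperbolic p e := by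
  constructor
  · rintro ⟨⟨d, hd⟩, h1, h2⟩
    refine hyp_of_splits hd h1 fun x => ?_
    have := h2 (-x)
    rwa [restr_eq, neg_neg] at this
  · intro h
    exact ⟨h.1, h.2.1, fun x => restr_eq p e x ▸ h.splits _⟩

theorem cone_eq {p : MvPolynomial (Fin n) ℝ} {e : Fin n → ℝ} (h : IsHyperbolic p e) :
    cone p e = hypCone p e := by
  ext x
  have h0 : restr p e x ≠ 0 := restr_eq p e x ▸ line_e_ne_zero h _
  simp only [cone, hypCone, Set.mem_ofPred_eq, Polynomial.mem_roots h0, Polynomial.IsRoot.def,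
    eval_restr]

theorem gshad_proj {k : ℕ} {S : Set (Fin (n + k) → ℝ)} (h : GShad S) :
    GShad {x : Fin n → ℝ | ∃ u : Fin k → ℝ, Fin.append x u ∈ S} := by
  obtain ⟨ι, κ, _, _, A₀, A, B, h0, hA, hB, rfl⟩ := h
  refine ⟨ι, Fin k ⊕ κ, inferInstance, inferInstance, A₀, fun i => A (Fin.castAdd k i),
    Sum.elim (fun j => A (Fin.natAdd n j)) B, h0, fun i => hA _, ?_, ?_⟩
  · rintro (j | j)
    · exact hA _
    · exact hB _
  · ext x
    have key : ∀ (u : Fin k → ℝ) (w : κ → ℝ),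
        A₀ + ∑ i, Fin.append x u i • A i + ∑ j, w j • B j =
        A₀ + ∑ i, x i • A (Fin.castAdd k i) + ∑ j : Fin k ⊕ κ, Sum.elim u w j •
          (Sum.elim (fun j => A (Fin.natAdd n j)) B : Fin k ⊕ κ → Matrix ι ι ℝ) j := by
      intro u w
      rw [Fin.sum_univ_add, Fintype.sum_sum_type]
      simp [add_assoc]
    simp only [Set.mem_ofPred_eq, key]
    constructor
    · rintro ⟨u, w, h⟩
      exact ⟨_, h⟩
    · rintro ⟨v, h⟩
      refine ⟨v ∘ Sum.inl, v ∘ Sum.inr, ?_⟩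
      rwa [Sum.elim_comp_inl_inr]

variable [Fintype σ]

theorem Shadow.pre {S : Set (σ → ℝ)} (h : Shadow S) (f : (Fin n → ℝ) →ₗ[ℝ] (σ → ℝ)) :
    GShad (f ⁻¹' S) := by
  obtain ⟨k, T, L, ⟨m, A₀, A, h0, hA, hT⟩, rfl⟩ := h
  have h1 : GShad T := ⟨Fin m, Empty, inferInstance, inferInstance, A₀, A, fun j => j.elim, h0, hA,
    fun j => j.elim, by simpa using hT⟩
  obtain ⟨D, hD⟩ : ∃ D : (Fin (n + k) → ℝ) →ₗ[ℝ] (σ → ℝ),
      D = f ∘ₗ LinearMap.funLeft ℝ ℝ (Fin.castAdd k) -
        L ∘ₗ LinearMap.funLeft ℝ ℝ (Fin.natAdd n) := ⟨_, rfl⟩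
  have h2 := gshad_proj ((h1.preimage (LinearMap.funLeft ℝ ℝ (Fin.natAdd n))).inter
    (GShad.iInter Finset.univ fun s _ => (GShad.halfspace (LinearMap.proj s ∘ₗ D)).inter
      (GShad.halfspace (-(LinearMap.proj s ∘ₗ D)))))
  have e1 : ∀ (x : Fin n → ℝ) (u : Fin k → ℝ),
      LinearMap.funLeft ℝ ℝ (Fin.natAdd n) (Fin.append x u) = u := fun x u => by
    funext j
    simp [LinearMap.funLeft_apply]
  have e2 : ∀ (x : Fin n → ℝ) (u : Fin k → ℝ), D (Fin.append x u) = f x - L u := fun x u => by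
    have : LinearMap.funLeft ℝ ℝ (Fin.castAdd k) (Fin.append x u) = x := by
      funext j
      simp [LinearMap.funLeft_apply]
    rw [hD, LinearMap.sub_apply, LinearMap.comp_apply, LinearMap.comp_apply, e1, this]
  refine Eq.mp (congrArg GShad ?_) h2
  ext x
  simp only [Set.mem_ofPred_eq, Set.mem_inter_iff, Set.mem_preimage, e1, Finset.mem_univ,
    true_imp_iff, LinearMap.neg_apply, LinearMap.comp_apply, e2, LinearMap.proj_apply,
    Set.mem_image, Pi.sub_apply]
  refine exists_congr fun u => and_congr_right fun _ => ⟨fun h => ?_, fun h s => ?_⟩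
  · funext s
    linarith [(h s).1, (h s).2]
  · simp [h]

/-- The functional `x ↦ x ⬝ y`. -/
noncomputable def dotL (y : Fin n → ℝ) : (Fin n → ℝ) →L[ℝ] ℝ :=
  LinearMap.toContinuousLinearMap
    { toFun := fun x => x ⬝ᵥ y
      map_add' := fun a b => add_dotProduct a b y
      map_smul' := fun c a => smul_dotProduct c a y }

theorem dotL_apply (y x : Fin n → ℝ) : dotL y x = x ⬝ᵥ y := rfl

theorem exists_dot (f : (Fin n → ℝ) →L[ℝ] ℝ) : ∃ y : Fin n → ℝ, ∀ x, f x = x ⬝ᵥ y := by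
  refine ⟨fun i => f (Pi.single i 1), fun x => ?_⟩
  conv_lhs => rw [← Finset.univ_sum_single x, map_sum]
  refine Finset.sum_congr rfl fun i _ => ?_
  rw [← smul_eq_mul, ← map_smul, ← Pi.single_smul, smul_eq_mul, mul_one]

theorem qq_eq {m : ℕ} (z : Fin m → ℝ) (M : Matrix (Fin m) (Fin m) ℝ) :
    qq z M = ∑ l, ∑ l', M l l' * (z l * z l') := by
  change z ⬝ᵥ M *ᵥ z = _
  simp only [dotProduct, mulVec, Finset.mul_sum]
  exact Finset.sum_congr rfl fun i _ => Finset.sum_congr rfl fun j _ => by ring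

/-- A closed convex cone whose dual cone is a shadow is a shadow. -/
theorem shadow_of_dual {K : Set (Fin n → ℝ)} (hcl : IsClosed K)
    (hadd : ∀ x ∈ K, ∀ y ∈ K, x + y ∈ K) (hsm : ∀ c : ℝ, 0 ≤ c → ∀ x ∈ K, c • x ∈ K)
    (h0 : 0 ∈ K) (h : GShad (dual K)) : GShad K := by
  classical
  obtain ⟨m, hm⟩ : ∃ m, HasLift m (dual K) := h.shadow
  obtain ⟨C, hC⟩ := fact_fin m
  have hd0 : (0 : Fin n → ℝ) ∈ dual K := fun x _ => by simp
  have : Nonempty (TT (dual K)) := ⟨⟨0, hd0, by simp⟩⟩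
  obtain ⟨c, b, hb, hcb⟩ := fact_compact (m := m)
    (fun (y : TT (dual K)) (f : YY (dual K)) => f.1 y.1) C (by
    intro F G J
    obtain ⟨c, hc, hcf⟩ := hC n _ hm hd0 F (fun k => k.1.1) (fun k => k.1.2.1)
      fun k => k.1.2.2.trans (by norm_num)
    choose b hb1 hb2 hb3 using fun f : G => hcf f.1.1 0 f.1.2.1 zero_le_one fun y hy _ => by
      simpa using f.1.2.2 y hy
    exact ⟨c, b, hc, hb1, hb2, fun x f => (hb3 f x).trans (by positivity)⟩)
  obtain ⟨g, hg⟩ : ∃ g : TT (dual K) → Fin m → Fin m → ℝ,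
    g = fun y l l' => (∑ i, vecMulVec (c y i) (c y i)) l l' := ⟨_, rfl⟩
  have hK : K = {x | ∃ M : Matrix (Fin m) (Fin m) ℝ,
      (x, M) ∈ factW (fun y : TT (dual K) => dotL y.1) g ∧ M.PosSemidef} := by
    ext x
    constructor
    · intro hx
      have ht : 0 < ‖dotL x‖ + 1 := by positivity
      obtain ⟨f, hf⟩ : ∃ f : YY (dual K), f.1 = (‖dotL x‖ + 1)⁻¹ • dotL x :=
        ⟨⟨(‖dotL x‖ + 1)⁻¹ • dotL x, by
          rw [norm_smul, Real.norm_eq_abs, abs_of_pos (inv_pos.2 ht), inv_mul_le_iff₀ ht]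
          linarith, fun y hy => mul_nonneg (inv_pos.2 ht).le
            ((hy x hx).trans_eq (dotProduct_comm _ _))⟩, rfl⟩
      obtain ⟨M, hM⟩ : ∃ M : Matrix (Fin m) (Fin m) ℝ,
        M = Matrix.of fun l l' => (‖dotL x‖ + 1) * ((b f l l' + b f l' l) / 2) := ⟨_, rfl⟩
      have hs : M.IsSymm := by
        ext l l'
        simp [hM, add_comm]
      have hsum : ∀ G : Fin m → Fin m → ℝ, (∀ l l', G l l' = G l' l) →
          ∑ l, ∑ l', M l l' * G l l' = (‖dotL x‖ + 1) * ∑ l, ∑ l', G l l' * b f l l' := by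
        intro G hG
        have e1 : ∑ l, ∑ l', G l l' * b f l' l = ∑ l, ∑ l', G l l' * b f l l' := by
          rw [Finset.sum_comm]
          exact Finset.sum_congr rfl fun l _ => Finset.sum_congr rfl fun l' _ => by rw [hG]
        have e2 : ∑ l, ∑ l', M l l' * G l l' = (‖dotL x‖ + 1) / 2 *
            (∑ l, ∑ l', G l l' * b f l l' + ∑ l, ∑ l', G l l' * b f l' l) := by
          simp only [← Finset.sum_add_distrib, Finset.mul_sum, hM, Matrix.of_apply]
          exact Finset.sum_congr rfl fun l _ => Finset.sum_congr rfl fun l' _ => by ring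
        rw [e2, e1]
        ring
      refine ⟨M, ⟨hs, fun y => ?_⟩, psd_of_qq hs fun z => ?_⟩
      · have e3 := hcb y f
        rw [gram_pair, hf] at e3
        rw [hsum (g y) fun l l' => by
          rw [hg]
          exact ((gram_symm (c y)).apply l l').symm]
        simp only [hg]
        rw [← e3, dotL_apply, _root_.smul_apply, dotL_apply, smul_eq_mul,
          mul_inv_cancel_left₀ ht.ne', dotProduct_comm]
      · have e4 : qq z M = ∑ l, ∑ l', M l l' * (z l * z l') := qq_eq z M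
        rw [e4, hsum _ fun l l' => mul_comm _ _]
        exact mul_nonneg ht.le (hb f z)
    · rintro ⟨M, hM, hMp⟩
      by_contra hx
      obtain ⟨f, -, hf2, hf3⟩ := sep_cone hcl hadd hsm h0 hx
      obtain ⟨y, hy⟩ := exists_dot f
      have ht : 0 < 2 * ‖y‖ + 1 := by positivity
      obtain ⟨y0, hy0⟩ : ∃ y0 : TT (dual K), y0.1 = (2 * ‖y‖ + 1)⁻¹ • y :=
        ⟨⟨(2 * ‖y‖ + 1)⁻¹ • y, fun u hu => by
          rw [dotProduct_smul, ← hy]
          exact mul_nonneg (inv_pos.2 ht).le (hf2 u hu), by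
          rw [norm_smul, Real.norm_eq_abs, abs_of_pos (inv_pos.2 ht), inv_mul_le_iff₀ ht]
          linarith⟩, rfl⟩
      have h1 : dotL y0.1 x = ∑ l, ∑ l', M l l' * g y0 l l' := hM.2 y0
      have h2 := form_pair_nonneg (b := g y0) (fun z => by
        have := qq_nonneg (gram_psd (c y0)) z
        rw [qq_eq] at this
        simpa only [hg, form, mul_comm] using this) hMp
      rw [← h1, dotL_apply, hy0, dotProduct_smul, ← hy] at h2
      exact absurd h2 (not_le.2 (mul_neg_of_pos_of_neg (inv_pos.2 ht) hf3))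
  rw [hK]
  exact GShad.of_shadow (CShad.lift (factW (fun y : TT (dual K) => dotL y.1) g)
    fun z hz => hz.1).shadow

/-- The master lemma. -/
theorem noLift_of {p : MvPolynomial σ ℝ} {e : σ → ℝ} (hp : Hyperbolic p e)
    (f : (Fin n → ℝ) →ₗ[ℝ] (σ → ℝ)) (h : ¬ GShad (f ⁻¹' cone p e)) : NoLift p e := by
  refine ⟨hp, fun h1 => h (h1.pre f), fun h1 => h ?_⟩
  obtain ⟨ε⟩ : Nonempty (σ ≃ Fin (Fintype.card σ)) := ⟨Fintype.equivFin σ⟩
  have hr : ∀ x, restr (rename ε p) (e ∘ ε.symm) x = restr p e (x ∘ ε) := fun x => by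
    apply Polynomial.funext
    intro t
    rw [eval_restr, eval_restr, eval_rename]
    congr 2
    funext i
    simp
  have hq : IsHyperbolic (rename ε p) (e ∘ ε.symm) := hyp_iff.1 (by
    obtain ⟨⟨d, hd⟩, h2, h3⟩ := hp
    refine ⟨⟨d, hd.rename_isHomogeneous⟩, ?_, fun x => hr x ▸ h3 _⟩
    rw [eval_rename]
    simpa [Function.comp_def] using h2)
  have hc : ∀ x, x ∈ hypCone (rename ε p) (e ∘ ε.symm) ↔ x ∘ ε ∈ cone p e := fun x => by
    rw [← cone_eq hq, cone, cone, Set.mem_ofPred_eq, Set.mem_ofPred_eq, hr]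
  have h2 := shadow_of_dual (isClosed_K hq) (fun _ hx _ hy => K_add hq hx hy)
    (fun _ hc _ hx => K_smul hq hx hc) (K_zero hq) (by
      refine Eq.mp (congrArg GShad ?_) (h1.pre (LinearMap.funLeft ℝ ℝ ε))
      ext y
      refine ⟨fun hy x hx => ?_, fun hy x hx => ?_⟩
      · have := hy _ ((hc x).1 hx)
        rwa [show LinearMap.funLeft ℝ ℝ ε y = y ∘ ε from rfl, comp_equiv_dotProduct_comp_equiv]
          at this
      · have := hy (x ∘ ε.symm) ((hc _).2 (by simpa [Function.comp_def] using hx))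
        rw [← comp_equiv_dotProduct_comp_equiv _ _ ε, Function.comp_assoc,
          Equiv.symm_comp_self, Function.comp_id] at this
        exact this)
  refine Eq.mp (congrArg GShad ?_) (h2.preimage (LinearMap.funLeft ℝ ℝ ε.symm ∘ₗ f))
  ext x
  rw [Set.mem_preimage, Set.mem_preimage, hc]
  exact Iff.of_eq (congrArg (· ∈ cone p e) (by funext i; simp [LinearMap.funLeft_apply]))

end Vale.Agent.N256b
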