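import Mathlib.Algebra.Polynomial.Splits
import Mathlib.Algebra.Polynomial.Roots
import Mathlib.Analysis.Complex.Basic
import Mathlib.Analysis.Matrix.Order
import Mathlib.Data.Sym.Sym2
import Mathlib.LinearAlgebra.UnitaryGroup
import Mathlib.RingTheory.MvPolynomial.Homogeneous
import Mathlib.RingTheory.MvPolynomial.Symmetric.Defs

/-! P256: hyperbolicity cones and linear images of spectrahedra. -/

namespace Vale.Agent.N256b

open MvPolynomial

variable {σ : Type} [Fintype σ]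

/-- The polynomial `t ↦ p (t e - x)` in one variable. -/
noncomputable def restr (p : MvPolynomial σ ℝ) (e x : σ → ℝ) : Polynomial ℝ :=
  aeval (fun i => Polynomial.C (e i) * Polynomial.X - Polynomial.C (x i)) p

/-- `p` is homogeneous, `p e > 0`, and every `t ↦ p (t e - x)` is a product of real linear
factors. -/
def Hyperbolic (p : MvPolynomial σ ℝ) (e : σ → ℝ) : Prop :=
  (∃ d, p.IsHomogeneous d) ∧ 0 < eval e p ∧ ∀ x, (restr p e x).Splits

/-- The closed hyperbolicity cone `K(p, e)`. -/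
def cone (p : MvPolynomial σ ℝ) (e : σ → ℝ) : Set (σ → ℝ) :=
  {x | ∀ t ∈ (restr p e x).roots, 0 ≤ t}

/-- Spectrahedra in `ℝ^k`. -/
def Spectrahedron {k : ℕ} (T : Set (Fin k → ℝ)) : Prop :=
  ∃ (m : ℕ) (A₀ : Matrix (Fin m) (Fin m) ℝ) (A : Fin k → Matrix (Fin m) (Fin m) ℝ),
    A₀.IsSymm ∧ (∀ i, (A i).IsSymm) ∧ T = {u | (A₀ + ∑ i, u i • A i).PosSemidef}

/-- Spectrahedral shadows: linear images of spectrahedra. -/
def Shadow (S : Set (σ → ℝ)) : Prop :=
  ∃ (k : ℕ) (T : Set (Fin k → ℝ)) (L : (Fin k → ℝ) →ₗ[ℝ] (σ → ℝ)), Spectrahedron T ∧ S = L '' T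

/-- The dual cone. -/
def dual (K : Set (σ → ℝ)) : Set (σ → ℝ) := {y | ∀ x ∈ K, 0 ≤ x ⬝ᵥ y}

/-- `p` is hyperbolic with respect to `e`, and neither `K(p, e)` nor its dual cone is a
spectrahedral shadow. -/
def NoLift (p : MvPolynomial σ ℝ) (e : σ → ℝ) : Prop :=
  Hyperbolic p e ∧ ¬ Shadow (cone p e) ∧ ¬ Shadow (dual (cone p e))

/-- Real stable: no zero with all coordinates in the open upper half-plane. -/
def Stable (p : MvPolynomial σ ℝ) : Prop :=
  ∀ z : σ → ℂ, (∀ i, 0 < (z i).im) → aeval z p ≠ 0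

/-- The weighted elementary symmetric polynomial `∑_{|S| = d} μ(S) x^S`. -/
noncomputable def gen (μ : Finset σ → ℝ) (d : ℕ) : MvPolynomial σ ℝ :=
  ∑ S ∈ Finset.powersetCard d Finset.univ, C (μ S) * ∏ i ∈ S, X i

/-- The symmetric matrix with the entries `x {i, j}`. -/
def mat {n : ℕ} (x : Sym2 (Fin n) → ℝ) : Matrix (Fin n) (Fin n) ℝ :=
  Matrix.of fun i j => x s(i, j)

/-- Real zero polynomials: `f 0 > 0`, and every `t ↦ f (t x)` has only real roots. -/
def RealZero (f : MvPolynomial σ ℝ) : Prop := 0 < eval 0 f ∧ ∀ x, (restr f x 0).Splits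

/-- The rigidly convex set of `f`: no zero of `f` on the half-open segment from `0` to `x`. -/
def rigid (f : MvPolynomial σ ℝ) : Set (σ → ℝ) :=
  {x | ∀ t : ℝ, 0 ≤ t → t < 1 → eval (t • x) f ≠ 0}

end Vale.Agent.N256b
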