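import Vale.Agent.N256b.Spec

/-! P256: compact rigidly convex sets, and the final statements. -/

namespace Vale.Agent.N256b

open MvPolynomial Vale.Agent.P256 Vale.Agent.N256 Finset Matrix

variable {n : ℕ}

theorem exists_rz {p : MvPolynomial (Fin n) ℝ} {e : Fin n → ℝ} (hp : IsHyperbolic p e)
    (hpt : ∀ x ∈ hypCone p e, -x ∈ hypCone p e → x = 0)
    (hns : ¬ IsSpectrahedralShadow (hypCone p e)) :
    ∃ f : MvPolynomial (Fin n) ℝ, RealZero f ∧ IsCompact (rigid f) ∧ ¬ Shadow (rigid f) := by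
  obtain ⟨d, hd⟩ := hp.1
  obtain ⟨s, hs⟩ := exists_tr hp hpt
  obtain ⟨g, hg⟩ := exists_dot s
  obtain ⟨c, hc⟩ : ∃ c, c = ‖s‖ + 1 := ⟨_, rfl⟩
  have hc0 : 0 < c := hc ▸ by positivity
  have hse := (norm_nonneg e).trans (hs e ((e_inOpen hp).mem hp))
  obtain ⟨f, hf⟩ : ∃ f : MvPolynomial (Fin n) ℝ, ∀ y, eval y f = eval (e + y) p * (c - s y) :=
    ⟨aeval (fun i => C (e i) + X i) p * (C c - ∑ i, X i * C (g i)), fun y => by
      rw [map_mul, lr_eval_aeval, hg]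
      simp [dotProduct, Pi.add_def]⟩
  have hR : rigid f = {y | e + y ∈ hypCone p e ∧ s y ≤ c} := by
    ext y
    simp only [rigid, Set.mem_ofPred_eq, hf, mem_hypCone_iff hd, map_smul, smul_eq_mul]
    have key : ∀ τ : ℝ, 0 < τ → e + y + τ • e = (1 + τ) • (e + (1 + τ)⁻¹ • y) := fun τ hτ => by
      rw [smul_add, smul_smul, mul_inv_cancel₀ (by positivity), one_smul, add_smul, one_smul]
      abel
    constructor
    · refine fun h => ⟨fun τ hτ => ?_, not_lt.1 fun h1 => ?_⟩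
      · rw [key τ hτ, eval_smul' hd]
        exact mul_ne_zero (pow_ne_zero _ (by positivity)) (left_ne_zero_of_mul
          (h _ (by positivity) (inv_lt_one_of_one_lt₀ (by linarith))))
      · have h2 : 0 < s y := hc0.trans h1
        refine right_ne_zero_of_mul (h (c / s y) (by positivity) ((div_lt_one h2).2 h1)) ?_
        rw [div_mul_cancel₀ _ h2.ne', sub_self]
    · rintro ⟨h1, h2⟩ t h3 h4
      refine mul_ne_zero ?_ (by nlinarith : 0 < c - t * s y).ne'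
      rcases h3.eq_or_lt with rfl | h3
      · simpa using hp.2.1.ne'
      · have h5 : 0 < t⁻¹ - 1 := sub_pos.2 ((one_lt_inv₀ h3).2 h4)
        have h6 := h1 _ h5
        rw [key _ h5, eval_smul' hd, add_sub_cancel, inv_inv] at h6
        exact right_ne_zero_of_mul h6
  refine ⟨f, ⟨?_, fun x => ?_⟩, ?_, fun h => hns ?_⟩
  · rw [hf, add_zero, map_zero, sub_zero]
    exact mul_pos hp.2.1 hc0
  · have h1 : restr f x 0 =
        line p e x * (Polynomial.C c - Polynomial.C (s x) * Polynomial.X) := by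
      refine Polynomial.funext fun t => ?_
      rw [eval_restr, hf, Polynomial.eval_mul, eval_line, sub_zero, map_smul]
      simp only [Polynomial.eval_sub, Polynomial.eval_mul, Polynomial.eval_C, Polynomial.eval_X,
        smul_eq_mul, mul_comm t]
    rw [h1]
    refine (splits_of_real_roots _ fun z hz => ?_).mul (Polynomial.Splits.of_natDegree_le_one ?_)
    · by_contra h2
      have h3 : z ≠ 0 := fun h => h2 (by simp [h])
      refine hp.ne_zero x z⁻¹ (by simp [Complex.inv_im, h2, h3]) ?_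
      rw [aeval_line] at hz
      rw [← mul_eq_zero_iff_left (pow_ne_zero d h3), ← aeval_smul hd, ← hz]
      congr 2
      funext i
      field_simp
      ring
    · compute_degree
  · rw [hR]
    refine Metric.isCompact_of_isClosed_isBounded (((isClosed_K hp).preimage (by fun_prop)).inter
      (isClosed_le s.continuous continuous_const))
      ((Metric.isBounded_closedBall (x := -e) (r := s e + c)).subset fun y hy => ?_)
    have := hs _ hy.1
    rw [map_add] at this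
    rw [mem_closedBall_iff_norm, sub_neg_eq_add, add_comm]
    linarith [hy.2]
  · obtain ⟨m, hm⟩ : ∃ m, HasLift m (rigid f) := (h.pre LinearMap.id).shadow
    refine shadow_of_approx (isClosed_K hp) (fun _ hx _ hy => K_add hp hx hy)
      (fun _ hc _ hx => K_smul hp hx hc) (K_zero hp) m fun F G η hη hF hG =>
        ⟨_, hm.affine 1 (-e), ?_, fun x hx => ⟨x, ?_, by simpa using hη.le⟩, fun φ hφ y hy _ => ?_⟩
    · simp only [hR, Set.mem_ofPred_eq, smul_zero, zero_add, add_neg_cancel, map_neg]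
      exact ⟨K_zero hp, by linarith⟩
    · have h1 := (le_abs_self _).trans (s.le_opNorm x)
      have h2 := mul_le_mul_of_nonneg_left (hF x hx).2 (norm_nonneg s)
      simp only [hR, Set.mem_ofPred_eq, one_smul, add_neg_cancel_comm_assoc, map_add, map_neg]
      exact ⟨(hF x hx).1, by linarith [norm_nonneg s]⟩
    · simp only [hR, Set.mem_ofPred_eq, one_smul, add_neg_cancel_comm_assoc] at hy
      linarith [(hG φ hφ).2 y hy.1]

theorem pointed {n : ℕ} (hn : 221 ≤ n) : ∃ (p : MvPolynomial (Fin n) ℝ) (e : Fin n → ℝ),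
    IsHyperbolic p e ∧ (∀ x ∈ hypCone p e, -x ∈ hypCone p e → x = 0) ∧
      ¬ IsSpectrahedralShadow (hypCone p e) := by
  obtain ⟨d, h⟩ := good_all
  obtain ⟨p, e, -, h1, -, h2⟩ := h n d (Or.inl ⟨hn, rfl⟩)
  exact ⟨p, e, h1, h2⟩

theorem sym_all {n : ℕ} (hn : 222 ≤ n) : ∃ P : MvPolynomial (Fin n) ℝ, P.IsSymmetric ∧
    (∀ α, 0 ≤ coeff α P) ∧ Stable P ∧ IsHyperbolic P 1 ∧ ¬ GShad (hypCone P 1) := by
  obtain ⟨n, rfl⟩ : ∃ k, n = k + 1 := ⟨n - 1, by omega⟩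
  obtain ⟨p, e, h1, h2, h3⟩ := pointed (n := n) (by omega)
  obtain ⟨P, a, b, c, d, f, hf⟩ := exists_sym h1 h2 (by omega)
  exact ⟨P, a, b, c, d, fun h => h3 (hf ▸ h.preimage f).shadow⟩

theorem part2 (n : ℕ) (hn : 222 ≤ n) : ∃ p : MvPolynomial (Fin n) ℝ, p.IsSymmetric ∧
    (∀ α, 0 ≤ coeff α p) ∧ Stable p ∧ NoLift p 1 := by
  obtain ⟨P, a, b, c, d, h⟩ := sym_all hn
  exact ⟨P, a, b, c, noLift_of (hyp_iff.2 d) LinearMap.id (cone_eq d ▸ h)⟩

theorem part1 : ¬ ∀ (n : ℕ) (p : MvPolynomial (Fin n) ℝ) (e : Fin n → ℝ),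
    Hyperbolic p e → Shadow (cone p e) := fun h => by
  obtain ⟨p, -, -, -, h1, h2, -⟩ := part2 222 le_rfl
  exact h2 (h _ p 1 h1)

theorem part3 : ∃ d₀ : ℕ, ∀ d n : ℕ, d₀ ≤ d → 223 * d ≤ n → ∃ μ : Finset (Fin n) → ℝ,
    (∀ S ∈ powersetCard d univ, 0 < μ S) ∧ ∑ S ∈ powersetCard d univ, μ S = 1 ∧
      Stable (gen μ d) ∧ NoLift (gen μ d) 1 := by
  obtain ⟨d₀, h⟩ := good_all
  refine ⟨d₀, fun d n hd hn => ?_⟩
  obtain ⟨p, e, h0, h1, -, -, h2⟩ := h 223 d (Or.inr ⟨le_rfl, hd⟩)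
  obtain ⟨μ, a, b, c, g, f, hf⟩ := exists_gen h1 h0 (by norm_num) hn
  exact ⟨μ, a, b, c, noLift_of g f fun h => h2 (hf ▸ h).shadow⟩

theorem part4 (n : ℕ) (hn : 222 ≤ n) :
    ∃ (p : MvPolynomial (Sym2 (Fin n)) ℝ) (e : Sym2 (Fin n) → ℝ), mat e = 1 ∧
      (∀ U ∈ orthogonalGroup (Fin n) ℝ, ∀ x y, mat y = U * mat x * Uᵀ → eval y p = eval x p) ∧
      NoLift p e := by
  obtain ⟨P, a, -, -, d, h⟩ := sym_all hn
  obtain ⟨q, e, h1, h2, h3, h4⟩ := exists_inv a d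
  exact ⟨q, e, h1, h2, noLift_of h3 (dg n) (h4 ▸ h)⟩

theorem part5 (n : ℕ) (hn : 221 ≤ n) :
    ∃ f : MvPolynomial (Fin n) ℝ, RealZero f ∧ IsCompact (rigid f) ∧ ¬ Shadow (rigid f) := by
  obtain ⟨p, e, h1, h2, h3⟩ := pointed hn
  exact exists_rz h1 h2 h3

theorem part6 (n : ℕ) (p : MvPolynomial (Fin (n + 1)) ℝ) (e : Fin (n + 1) → ℝ)
    (hp : Hyperbolic p e) (hpt : ∀ x ∈ cone p e, -x ∈ cone p e → x = 0) :
    ∃ (P : MvPolynomial (Fin (n + 2)) ℝ) (f : (Fin (n + 1) → ℝ) →ₗ[ℝ] (Fin (n + 2) → ℝ)),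
      P.IsSymmetric ∧ Stable P ∧ Hyperbolic P 1 ∧ cone p e = f ⁻¹' cone P 1 := by
  have h := hyp_iff.1 hp
  rw [cone_eq h] at hpt ⊢
  obtain ⟨P, a, -, c, d, f, hf⟩ := exists_sym h hpt (Nat.succ_pos n)
  exact ⟨P, f, a, c, hyp_iff.2 d, cone_eq d ▸ hf.symm⟩

end Vale.Agent.N256b
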