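import Mathlib.Analysis.Complex.Polynomial.Basic
import Mathlib.RingTheory.MvPolynomial.Symmetric.Defs
import Mathlib.Tactic

/-! P256: the theorems of Laguerre and of Grace, Walsh and Szegő for the upper half-plane. -/

namespace Vale.Agent.N256b

open Polynomial Finset

/-- A sum of points of the disc `y |w|^2 + Im w ≤ 0`. -/
theorem disc_sum {y : ℝ} (hy : 0 ≤ y) (s : Multiset ℂ) (hs : ∀ w ∈ s, y * ‖w‖ ^ 2 + w.im ≤ 0) :
    y * ‖s.sum‖ ^ 2 + (Multiset.card s : ℝ) * s.sum.im ≤ 0 := by
  have key : ∀ s : Multiset ℂ, (∀ w ∈ s, y * ‖w‖ ^ 2 + w.im ≤ 0) →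
      y * (s.map fun w => ‖w‖ ^ 2).sum + s.sum.im ≤ 0 ∧
      ‖s.sum‖ ^ 2 ≤ (Multiset.card s : ℝ) * (s.map fun w => ‖w‖ ^ 2).sum ∧
      0 ≤ (s.map fun w => ‖w‖ ^ 2).sum := by
    intro s
    induction s using Multiset.induction_on with
    | empty => simp
    | cons a s ih =>
      intro h
      obtain ⟨h1, h2, h3⟩ := ih fun w hw => h w (Multiset.mem_cons_of_mem hw)
      have h4 := h a (Multiset.mem_cons_self _ _)
      simp only [Multiset.map_cons, Multiset.sum_cons, Multiset.card_cons, Complex.add_im,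
        Nat.cast_add, Nat.cast_one]
      refine ⟨by linarith, ?_, by positivity⟩
      have h5 := norm_add_le a s.sum
      have h6 : ‖a + s.sum‖ ^ 2 ≤ (‖a‖ + ‖s.sum‖) ^ 2 := by gcongr
      rcases Nat.eq_zero_or_pos (Multiset.card s) with h0 | h0
      · rw [Multiset.card_eq_zero] at h0
        subst h0
        simp
      · have hc : (0 : ℝ) < Multiset.card s := by exact_mod_cast h0
        have h7 : 2 * ‖a‖ * ‖s.sum‖ ≤ (Multiset.card s : ℝ) * ‖a‖ ^ 2 +
            (s.map fun w => ‖w‖ ^ 2).sum := by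
          refine le_of_mul_le_mul_left ?_ hc
          nlinarith [sq_nonneg ((Multiset.card s : ℝ) * ‖a‖ - ‖s.sum‖)]
        nlinarith
  obtain ⟨h1, h2, h3⟩ := key s hs
  have hc : (0 : ℝ) ≤ Multiset.card s := Nat.cast_nonneg _
  nlinarith [mul_le_mul_of_nonneg_left h1 hc, mul_le_mul_of_nonneg_left h2 hy]

theorem inv_disc {y : ℝ} {u : ℂ} (hu : u ≠ 0) :
    y * ‖1 / u‖ ^ 2 + (1 / u).im = (y - u.im) / ‖u‖ ^ 2 := by
  have h : ‖u‖ ≠ 0 := norm_ne_zero_iff.2 hu
  rw [one_div, Complex.inv_im, Complex.normSq_eq_norm_sq, norm_inv]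
  field_simp
  ring

/-- Laguerre: the polar derivative with a pole in the half-plane has no zero there. -/
theorem laguerre {f : ℂ[X]} {k : ℕ} (hk : f.natDegree ≤ k) (h0 : 0 < k)
    (hf : ∀ z : ℂ, 0 < z.im → f.eval z ≠ 0) {a z : ℂ} (ha : 0 < a.im) (hz : 0 < z.im) :
    (k : ℂ) * f.eval z + (a - z) * f.derivative.eval z ≠ 0 := by
  intro h
  have hs := IsAlgClosed.splits f
  rw [hs.eval_derivative_eq_eval_mul_sum (hf z hz)] at h
  obtain ⟨s, hsd⟩ : ∃ s, s = f.roots.map fun r => 1 / (z - r) := ⟨_, rfl⟩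
  rw [← hsd] at h
  have hkc : (k : ℂ) ≠ 0 := by exact_mod_cast h0.ne'
  have h1 : (k : ℂ) = (z - a) * s.sum := by
    apply mul_left_cancel₀ (hf z hz)
    linear_combination h
  have hza : z - a ≠ 0 := fun h2 => hkc (by rw [h1, h2, zero_mul])
  have h2 : s.sum = (k : ℝ) * (1 / (z - a)) := by
    field_simp
    rw [mul_comm]
    exact_mod_cast h1.symm
  have h3 := disc_sum hz.le s (by
    intro w hw
    rw [hsd] at hw
    obtain ⟨r, hr, rfl⟩ := Multiset.mem_map.1 hw
    have h4 : r.im ≤ 0 := not_lt.1 fun h5 => hf r h5 (mem_roots'.1 hr).2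
    have h5 : z - r ≠ 0 := fun h6 => by
      rw [sub_eq_zero.1 h6] at hz
      linarith
    rw [inv_disc h5, Complex.sub_im]
    exact div_nonpos_of_nonpos_of_nonneg (by linarith) (by positivity))
  have hcard : (Multiset.card s : ℝ) ≤ k := by
    rw [hsd, Multiset.card_map]
    exact_mod_cast (card_roots' f).trans hk
  have h6 := inv_disc (y := z.im) hza
  rw [Complex.sub_im, sub_sub_cancel] at h6
  have h7 : 0 < a.im / ‖z - a‖ ^ 2 := div_pos ha (pow_pos (norm_pos_iff.2 hza) 2)
  rw [h2, norm_mul, Complex.norm_real, Complex.im_ofReal_mul, Real.norm_natCast] at h3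
  have h8 : 0 < ‖1 / (z - a)‖ := norm_pos_iff.2 (one_div_ne_zero hza)
  generalize 1 / (z - a) = w at h3 h6 h8
  have hk0 : (0 : ℝ) < k := by exact_mod_cast h0
  have hc0 : (0 : ℝ) ≤ Multiset.card s := Nat.cast_nonneg _
  have h9 : 0 < z.im * ‖w‖ ^ 2 := by positivity
  have h10 : 0 < (k : ℝ) ^ 2 * (z.im * ‖w‖ ^ 2) := by positivity
  rcases le_total 0 w.im with hw | hw
  · have := mul_nonneg hc0 (mul_nonneg hk0.le hw)
    nlinarith
  · have h11 : 0 ≤ ((k : ℝ) - Multiset.card s) * (k * -w.im) :=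
      mul_nonneg (by linarith) (mul_nonneg hk0.le (by linarith))
    have h12 : 0 < (k : ℝ) ^ 2 * (z.im * ‖w‖ ^ 2 + w.im) := by rw [h6]; positivity
    nlinarith

theorem esymm_cons (a : ℂ) (s : Multiset ℂ) (m : ℕ) :
    (a ::ₘ s).esymm (m + 1) = s.esymm (m + 1) + a * s.esymm m := by
  simp only [Multiset.esymm, Multiset.powersetCard_cons, Multiset.map_add, Multiset.sum_add,
    Multiset.map_map, Function.comp_def, Multiset.prod_cons, Multiset.sum_map_mul_left]

theorem esymm_zero' (s : Multiset ℂ) : s.esymm 0 = 1 := by simp [Multiset.esymm]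

theorem esymm_top (s : Multiset ℂ) : s.esymm (Multiset.card s + 1) = 0 := by
  rw [Multiset.esymm, Multiset.powersetCard_eq_empty _ (Nat.lt_succ_self _)]
  simp

/-- Grace, Walsh, Szegő. -/
theorem gws (s : Multiset ℂ) : (∀ a ∈ s, 0 < a.im) → ∀ f : ℂ[X], f.natDegree ≤ Multiset.card s →
    (∀ z : ℂ, 0 < z.im → f.eval z ≠ 0) →
    ∑ m ∈ range (Multiset.card s + 1),
      f.coeff m * (s.esymm m / (Multiset.card s).choose m) ≠ 0 := by
  induction s using Multiset.induction_on with
  | empty =>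
    intro _ f hf h
    have h1 := h Complex.I (by simp)
    rw [eq_C_of_natDegree_le_zero hf, eval_C] at h1
    simpa [esymm_zero'] using h1
  | cons a s ih =>
    intro hs f hf h
    obtain ⟨k, hk⟩ : ∃ k, k = Multiset.card s := ⟨_, rfl⟩
    rw [Multiset.card_cons, ← hk] at hf ⊢
    have hK : ((k : ℂ) + 1) ≠ 0 := by exact_mod_cast Nat.succ_ne_zero k
    obtain ⟨g, hg⟩ : ∃ g, g = C ((k : ℂ) + 1) * f + (C a - X) * derivative f := ⟨_, rfl⟩
    have hc : ∀ m, g.coeff m = ((k : ℂ) + 1 - m) * f.coeff m + a * (f.coeff (m + 1) * (m + 1)) := by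
      intro m
      rw [hg, sub_mul, coeff_add, coeff_sub, coeff_C_mul, coeff_C_mul, coeff_derivative]
      cases m with
      | zero => simp
      | succ m =>
        rw [coeff_X_mul, coeff_derivative]
        push_cast
        ring
    have h1 := ih (fun b hb => hs b (Multiset.mem_cons_of_mem hb)) g (by
      rw [← hk, natDegree_le_iff_coeff_eq_zero]
      intro m hm
      rw [hc, coeff_eq_zero_of_natDegree_lt (n := m + 1) (by omega)]
      rcases Nat.lt_or_ge (k + 1) m with h2 | h2
      · rw [coeff_eq_zero_of_natDegree_lt (by omega)]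
        simp
      · obtain rfl : m = k + 1 := by omega
        simp) (fun z hz => by
      have := laguerre hf (Nat.succ_pos k) h (hs a (Multiset.mem_cons_self _ _)) hz
      rw [hg]
      simpa using this)
    rw [← hk] at h1
    intro h2
    apply h1
    have h3 : ∀ m ∈ range (k + 1), g.coeff m * (s.esymm m / k.choose m) = ((k : ℂ) + 1) *
        (f.coeff m * (s.esymm m / (k + 1).choose m) +
          f.coeff (m + 1) * (a * s.esymm m / (k + 1).choose (m + 1))) := by
      intro m hm
      have hm' : m ≤ k := Nat.lt_succ_iff.1 (mem_range.1 hm)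
      have e1 : ((k.choose m : ℕ) : ℂ) ≠ 0 := by exact_mod_cast (Nat.choose_pos hm').ne'
      have e2 : (((k + 1).choose m : ℕ) : ℂ) ≠ 0 := by
        exact_mod_cast (Nat.choose_pos (by omega)).ne'
      have e3 : (((k + 1).choose (m + 1) : ℕ) : ℂ) ≠ 0 := by
        exact_mod_cast (Nat.choose_pos (by omega)).ne'
      have e4 : ((k : ℂ) + 1) * k.choose m = (k + 1).choose (m + 1) * ((m : ℂ) + 1) := by
        exact_mod_cast Nat.add_one_mul_choose_eq k m
      have e5 : (k.choose m : ℂ) * ((k : ℂ) + 1) = (k + 1).choose m * ((k : ℂ) + 1 - m) := by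
        have := congrArg (Nat.cast : ℕ → ℂ) (Nat.choose_mul_succ_eq k m)
        rw [Nat.cast_mul, Nat.cast_mul, Nat.cast_sub (by omega)] at this
        exact_mod_cast this
      have e6 : ((k : ℂ) + 1 - m) / k.choose m = ((k : ℂ) + 1) / (k + 1).choose m := by
        rw [div_eq_div_iff e1 e2]
        linear_combination -e5
      have e7 : ((m : ℂ) + 1) / k.choose m = ((k : ℂ) + 1) / (k + 1).choose (m + 1) := by
        rw [div_eq_div_iff e1 e3]
        linear_combination -e4
      rw [hc]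
      linear_combination (f.coeff m * s.esymm m) * e6 + (f.coeff (m + 1) * a * s.esymm m) * e7
    rw [sum_congr rfl h3, ← mul_sum, sum_add_distrib]
    refine mul_eq_zero_of_right _ ?_
    rw [← h2, sum_range_succ' _ (k + 1)]
    simp only [esymm_cons, add_div, mul_add, sum_add_distrib]
    rw [sum_range_succ' _ k, sum_range_succ (fun m => f.coeff (m + 1) *
      (s.esymm (m + 1) / (k + 1).choose (m + 1))) k, hk, esymm_top, esymm_zero', esymm_zero']
    simp only [zero_div, mul_zero, add_zero]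
    ring

/-- The coincidence form. -/
theorem coin (s : Multiset ℂ) (hs : ∀ a ∈ s, 0 < a.im) (c : ℕ → ℂ) :
    ∃ z : ℂ, 0 < z.im ∧ ∑ m ∈ range (Multiset.card s + 1),
      c m * (s.esymm m / (Multiset.card s).choose m) =
        ∑ m ∈ range (Multiset.card s + 1), c m * z ^ m := by
  by_contra hcon
  push Not at hcon
  obtain ⟨L, hL⟩ : ∃ L, L = ∑ m ∈ range (Multiset.card s + 1),
      c m * (s.esymm m / (Multiset.card s).choose m) := ⟨_, rfl⟩
  rw [← hL] at hcon
  refine gws s hs (∑ m ∈ range (Multiset.card s + 1), monomial m (c m) - C L) ?_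
    (fun z hz => ?_) ?_
  · refine (natDegree_sub_le _ _).trans (max_le ?_ (by simp))
    exact natDegree_sum_le_of_forall_le _ _ fun m hm =>
      (natDegree_monomial_le _).trans (Nat.lt_succ_iff.1 (mem_range.1 hm))
  · simpa [eval_finsetSum, sub_eq_zero] using (hcon z hz).symm
  · simp only [coeff_sub, sub_mul, sum_sub_distrib]
    rw [sub_eq_zero]
    refine Eq.trans (sum_congr rfl fun m hm => ?_) (hL.symm.trans ?_)
    · rw [finsetSum_coeff, sum_eq_single m (fun b _ hb => by simp [coeff_monomial, hb])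
        (fun h => absurd hm h), coeff_monomial_same]
    · rw [sum_eq_single 0 (fun b _ hb => by simp [coeff_C, hb]) (by simp)]
      simp [esymm_zero']

/-- The coincidence form in several variables. -/
theorem coin_multi {ι κ : Type} [Fintype ι] [DecidableEq ι] (s : ι → Multiset ℂ)
    (hs : ∀ i, ∀ a ∈ s i, 0 < a.im) (A : Finset κ) (α : κ → ι → ℕ) (c : κ → ℂ)
    (hα : ∀ x ∈ A, ∀ i, α x i ≤ Multiset.card (s i)) :
    ∃ z : ι → ℂ, (∀ i, 0 < (z i).im) ∧
      ∑ x ∈ A, c x * ∏ i, ((s i).esymm (α x i) / (Multiset.card (s i)).choose (α x i)) =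
        ∑ x ∈ A, c x * ∏ i, z i ^ α x i := by
  obtain ⟨l, hl⟩ : ∃ l : ι → ℕ → ℂ,
      l = fun i m => (s i).esymm m / (Multiset.card (s i)).choose m := ⟨_, rfl⟩
  have key : ∀ T : Finset ι, ∃ z : ι → ℂ, (∀ i, 0 < (z i).im) ∧
      ∑ x ∈ A, c x * ∏ i, l i (α x i) =
        ∑ x ∈ A, c x * ∏ i, if i ∈ T then z i ^ α x i else l i (α x i) := by
    intro T
    induction T using Finset.induction_on with
    | empty => exact ⟨fun _ => Complex.I, fun _ => by simp, by simp⟩
    | insert j T hj ih =>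
      obtain ⟨z, hz, h⟩ := ih
      obtain ⟨r, hr⟩ : ∃ r : κ → ℂ, r = fun x =>
          c x * ∏ i ∈ univ.erase j, if i ∈ T then z i ^ α x i else l i (α x i) := ⟨_, rfl⟩
      obtain ⟨w, hw, h1⟩ := coin (s j) (hs j) fun m => ∑ x ∈ A with α x j = m, r x
      have h2 : ∀ φ : ℕ → ℂ, ∑ m ∈ range (Multiset.card (s j) + 1),
          (∑ x ∈ A with α x j = m, r x) * φ m = ∑ x ∈ A, r x * φ (α x j) := by
        intro φ
        rw [← sum_fiberwise_of_maps_to (s := A) (t := range (Multiset.card (s j) + 1))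
          (g := fun x => α x j) fun x hx => mem_range.2 (Nat.lt_succ_of_le (hα x hx j))]
        refine sum_congr rfl fun m _ => ?_
        rw [sum_mul]
        exact sum_congr rfl fun x hx => by rw [(mem_filter.1 hx).2]
      rw [h2, h2] at h1
      refine ⟨Function.update z j w, fun i => ?_, h.trans ?_⟩
      · rcases eq_or_ne i j with rfl | hi
        · simpa using hw
        · simpa [hi] using hz i
      · refine Eq.trans (sum_congr rfl fun x _ => ?_) (h1.trans (sum_congr rfl fun x _ => ?_))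
        · rw [← mul_prod_erase _ _ (mem_univ j), if_neg hj, hr, hl]
          ring
        · rw [← mul_prod_erase _ _ (mem_univ j), if_pos (mem_insert_self _ _), hr,
            Function.update_self, prod_congr rfl (g := fun i =>
              if i ∈ T then z i ^ α x i else l i (α x i)) fun i hi => by
                simp [(mem_erase.1 hi).1]]
          ring
  obtain ⟨z, hz, h⟩ := key univ
  exact ⟨z, hz, by simpa [hl] using h⟩

end Vale.Agent.N256b
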