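import Vale.Agent.N256b.Pos
import Vale.Agent.N256b.Gws

/-! P256: polarisation. Every hyperbolicity cone is a linear section of the cone of a weighted
elementary symmetric polynomial. -/

namespace Vale.Agent.N256b

open MvPolynomial Vale.Agent.P256 Vale.Agent.N256 Finset

variable {n N d : ℕ}

/-- The numbers of points of `S` in the fibres of `π`. -/
noncomputable def al (π : Fin N → Fin n) (S : Finset (Fin N)) : Fin n →₀ ℕ :=
  Finsupp.equivFunOnFinite.symm fun i => #{j ∈ S | π j = i}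

theorem al_apply (π : Fin N → Fin n) (S : Finset (Fin N)) (i : Fin n) :
    al π S i = #{j ∈ S | π j = i} := rfl

theorem al_degree (π : Fin N → Fin n) (S : Finset (Fin N)) : (al π S).degree = #S := by
  rw [Finsupp.degree_eq_sum, card_eq_sum_card_fiberwise (f := π) (t := univ)
    fun _ _ => mem_coe.2 (mem_univ _)]
  rfl

theorem fibre_sum (π : Fin N → Fin n) (z : Fin N → ℂ) (α : Fin n →₀ ℕ) (hα : α.degree = d) :
    ∑ S ∈ powersetCard d univ with al π S = α, ∏ j ∈ S, z j =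
      ∏ i, ∑ T ∈ powersetCard (α i) {j ∈ univ | π j = i}, ∏ j ∈ T, z j := by
  rw [prod_univ_sum]
  have key : ∀ T ∈ Fintype.piFinset fun i => powersetCard (α i) {j ∈ univ | π j = i},
      ∀ i, {j ∈ univ.biUnion T | π j = i} = T i := by
    intro T hT i
    have h : ∀ k, ∀ j ∈ T k, π j = k := fun k j hj =>
      (mem_filter.1 ((mem_powersetCard.1 (Fintype.mem_piFinset.1 hT k)).1 hj)).2
    ext j
    simp only [mem_filter, mem_biUnion, mem_univ, true_and]
    constructor
    · rintro ⟨⟨k, hk⟩, rfl⟩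
      rwa [h k j hk]
    · exact fun hj => ⟨⟨i, hj⟩, h i j hj⟩
  refine sum_nbij' (fun S i => {j ∈ S | π j = i}) (fun T => univ.biUnion T) (fun S hS => ?_)
    (fun T hT => ?_) (fun S _ => ?_) (fun T hT => funext (key T hT)) fun S _ => ?_
  · refine Fintype.mem_piFinset.2 fun i => mem_powersetCard.2
      ⟨filter_subset_filter _ (subset_univ _), ?_⟩
    rw [← (mem_filter.1 hS).2, al_apply]
  · have h1 : al π (univ.biUnion T) = α := Finsupp.ext fun i => by
      rw [al_apply, key T hT, (mem_powersetCard.1 (Fintype.mem_piFinset.1 hT i)).2]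
    refine mem_filter.2 ⟨mem_powersetCard.2 ⟨subset_univ _, ?_⟩, h1⟩
    rw [← al_degree π, h1, hα]
  · ext j
    simp
  · exact (prod_fiberwise S π z).symm

/-- The weights of the polarisation. -/
noncomputable def wt (π : Fin N → Fin n) (r : MvPolynomial (Fin n) ℝ) (S : Finset (Fin N)) : ℝ :=
  coeff (al π S) r / ∏ i, (#{j ∈ univ | π j = i}).choose (al π S i)

theorem gen_hom {σ : Type} [Fintype σ] (μ : Finset σ → ℝ) (d : ℕ) : (gen μ d).IsHomogeneous d := by
  refine IsHomogeneous.sum _ _ _ fun S hS => IsHomogeneous.C_mul ?_ _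
  have := IsHomogeneous.prod S (fun i => (X i : MvPolynomial σ ℝ)) (fun _ => 1)
    fun i _ => isHomogeneous_X ℝ i
  rwa [sum_const, smul_eq_mul, mul_one, (mem_powersetCard.1 hS).2] at this

theorem aeval_gen (π : Fin N → Fin n) {r : MvPolynomial (Fin n) ℝ} (hd : r.IsHomogeneous d)
    (hc : ∀ α : Fin n →₀ ℕ, α.degree = d → 0 < coeff α r) (z : Fin N → ℂ) :
    aeval z (gen (wt π r) d) = ∑ α ∈ r.support, ((coeff α r : ℝ) : ℂ) *
      ∏ i, (∑ T ∈ powersetCard (α i) {j ∈ univ | π j = i}, ∏ j ∈ T, z j) /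
        (#{j ∈ univ | π j = i}).choose (α i) := by
  simp only [gen, map_sum, map_mul, map_prod, aeval_X, aeval_C, Complex.coe_algebraMap]
  rw [← sum_fiberwise_of_maps_to (t := r.support) (g := al π) fun S hS => mem_support_iff.2
    (hc _ ((al_degree π S).trans (mem_powersetCard.1 hS).2)).ne']
  refine sum_congr rfl fun α hα => ?_
  have h1 : α.degree = d := by
    by_contra h
    exact mem_support_iff.1 hα (hd.coeff_eq_zero h)
  rw [prod_div_distrib, ← fibre_sum π z α h1, sum_div, mul_sum]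
  refine sum_congr rfl fun S hS => ?_
  rw [wt, (mem_filter.1 hS).2]
  push_cast
  ring

theorem hyp_of_stable {q : MvPolynomial (Fin N) ℝ} (hd : q.IsHomogeneous d) (hs : Stable q)
    (h1 : 0 < eval 1 q) : IsHyperbolic q 1 := by
  refine ⟨⟨d, hd⟩, h1, fun x t ht => ?_⟩
  by_contra h
  rcases lt_or_gt_of_ne h with h | h
  · refine hs (fun i => (-1) * (t * ((1 : Fin N → ℝ) i : ℂ) - (x i : ℂ))) (fun i => ?_) ?_
    · simpa using h
    · rw [aeval_smul hd, ht, mul_zero]
  · exact hs _ (fun i => by simpa using h) ht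

theorem polar (π : Fin N → Fin n) (hπ : ∀ i, d ≤ #{j ∈ univ | π j = i})
    {r : MvPolynomial (Fin n) ℝ} (hd : r.IsHomogeneous d) (hs : Stable r)
    (hc : ∀ α : Fin n →₀ ℕ, α.degree = d → 0 < coeff α r) :
    (∀ S ∈ powersetCard d univ, 0 < wt π r S) ∧ Stable (gen (wt π r) d) ∧
      ∀ x, eval (x ∘ π) (gen (wt π r) d) = eval x r := by
  have hle : ∀ α : Fin n →₀ ℕ, α.degree = d → ∀ i, α i ≤ #{j ∈ univ | π j = i} :=
    fun α hα i => ((Finsupp.le_degree i α).trans hα.le).trans (hπ i)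
  have hsup : ∀ α ∈ r.support, α.degree = d := fun α hα => by
    by_contra h
    exact mem_support_iff.1 hα (hd.coeff_eq_zero h)
  have hev : ∀ w : Fin n → ℂ, aeval w r =
      ∑ α ∈ r.support, ((coeff α r : ℝ) : ℂ) * ∏ i, w i ^ α i := fun w => by
    rw [aeval_def, eval₂_eq']
    rfl
  refine ⟨fun S hS => ?_, fun z hz => ?_, fun x => ?_⟩
  · have h1 := (al_degree π S).trans (mem_powersetCard.1 hS).2
    exact div_pos (hc _ h1) (Nat.cast_pos.2 (prod_pos fun i _ => Nat.choose_pos (hle _ h1 i)))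
  · obtain ⟨w, hw, h⟩ := coin_multi (fun i => ({j ∈ univ | π j = i} : Finset (Fin N)).val.map z)
      (fun i a ha => by
        obtain ⟨j, -, rfl⟩ := Multiset.mem_map.1 ha
        exact hz j) r.support (fun α i => α i) (fun α => ((coeff α r : ℝ) : ℂ))
      fun α hα i => (hle α (hsup α hα) i).trans_eq (Multiset.card_map _ _).symm
    simp only [esymm_map_val, Multiset.card_map, card_val] at h
    rw [aeval_gen π hd hc, h, ← hev]
    exact hs w hw
  · apply Complex.ofReal_injective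
    rw [← aeval_ofReal, ← aeval_ofReal, aeval_gen π hd hc, hev]
    refine sum_congr rfl fun α hα => congrArg _ (prod_congr rfl fun i _ => ?_)
    have h1 : (((#{j ∈ univ | π j = i}).choose (α i) : ℕ) : ℂ) ≠ 0 := by
      exact_mod_cast (Nat.choose_pos (hle α (hsup α hα) i)).ne'
    rw [div_eq_iff h1, sum_congr rfl (g := fun _ => (x i : ℂ) ^ α i) fun T hT => by
      obtain ⟨h2, h3⟩ := mem_powersetCard.1 hT
      rw [← h3, ← prod_const]
      exact prod_congr rfl fun j hj => by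
        rw [Function.comp_apply, (mem_filter.1 (h2 hj)).2], sum_const, card_powersetCard,
      nsmul_eq_mul, mul_comm]

theorem exists_fibres (hn : 0 < n) (hN : n * d ≤ N) :
    ∃ π : Fin N → Fin n, ∀ i, d ≤ #{j ∈ univ | π j = i} := by
  refine ⟨fun j => ⟨j % n, Nat.mod_lt _ hn⟩, fun i => ?_⟩
  have h : ∀ t : Fin d, i + n * t < N := fun t => by
    have h1 := Nat.mul_le_mul_left n (Nat.succ_le_of_lt t.2)
    have h2 := i.2
    rw [Nat.mul_succ] at h1
    omega
  conv_lhs => rw [← card_fin d]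
  refine card_le_card_of_injOn (fun t => ⟨i + n * t, h t⟩) (fun t _ => ?_) fun t _ u _ htu => ?_
  · simp [Fin.ext_iff, Nat.mod_eq_of_lt i.2]
  · have h1 : (i : ℕ) + n * t = i + n * u := congrArg Fin.val htu
    exact Fin.ext (Nat.eq_of_mul_eq_mul_left hn (by omega))

/-- Every hyperbolicity cone is a section of the cone of a strongly Rayleigh measure. -/
theorem exists_gen {p : MvPolynomial (Fin n) ℝ} {e : Fin n → ℝ} (hp : IsHyperbolic p e)
    (hd : p.IsHomogeneous d) (hn : 0 < n) (hN : n * d ≤ N) :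
    ∃ μ : Finset (Fin N) → ℝ, (∀ S ∈ powersetCard d univ, 0 < μ S) ∧
      ∑ S ∈ powersetCard d univ, μ S = 1 ∧ Stable (gen μ d) ∧ Hyperbolic (gen μ d) 1 ∧
      ∃ f : (Fin n → ℝ) →ₗ[ℝ] (Fin N → ℝ), f ⁻¹' cone (gen μ d) 1 = hypCone p e := by
  obtain ⟨v, hv, hsp⟩ := exists_basis hp
  obtain ⟨π, hπ⟩ := exists_fibres hn hN
  have ho : ∀ y : Fin n → ℝ, (∀ j, 0 ≤ y j) → (∃ k, 0 < y k) →
      InOpen p e (Fintype.linearCombination ℝ v y) := fun y hy ⟨k, hk⟩ => open_comb hp hv hy hk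
  have h1 := ho 1 (fun _ => zero_le_one) ⟨⟨0, hn⟩, zero_lt_one⟩
  have hc := (open_mono hp h1 0 le_rfl).1
  obtain ⟨c, hcd⟩ : ∃ c, c = eval (Fintype.linearCombination ℝ v 1) p := ⟨_, rfl⟩
  rw [← hcd] at hc
  have hp' : IsHyperbolic (C c⁻¹ * p) e := ⟨⟨d, hd.C_mul _⟩, by
    rw [map_mul, eval_C]
    exact mul_pos (inv_pos.2 hc) hp.2.1, fun x t ht => hp.2.2 x t (by
      rw [map_mul, aeval_C] at ht
      exact (mul_eq_zero.1 ht).resolve_left (by simpa using hc.ne'))⟩
  have ho' : ∀ a, InOpen p e a → InOpen (C c⁻¹ * p) e a := fun a ha t ht => by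
    rw [map_mul, eval_C]
    exact mul_ne_zero (inv_ne_zero hc.ne') (ha t ht)
  have hK : hypCone (C c⁻¹ * p) e = hypCone p e := by
    ext x
    simp [hypCone, hc.ne']
  obtain ⟨r, hr, hrd⟩ := exists_comp (C c⁻¹ * p) (Fintype.linearCombination ℝ v)
  have hrd' := hrd d (hd.C_mul _)
  have hss : SS r := fun z hz hz' => comp_ne hp' hr z (ho' _ (ho _ hz hz'))
  have hr1 : eval 1 r = 1 := by rw [hr, map_mul, eval_C, ← hcd, inv_mul_cancel₀ hc.ne']
  obtain ⟨h2, h3, h4⟩ := polar π hπ hrd' (fun z hz => hss z (fun j => (hz j).le) ⟨_, hz ⟨0, hn⟩⟩)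
    (coeff_pos d r hrd' hss (hr1 ▸ zero_lt_one))
  have h5 : eval 1 (gen (wt π r) d) = 1 := (h4 1).trans hr1
  have h6 := hyp_of_stable (gen_hom _ d) h3 (h5 ▸ zero_lt_one)
  obtain ⟨R, hR⟩ := (Fintype.linearCombination ℝ v).exists_rightInverse_of_surjective
    (LinearMap.range_eq_top.2 hsp)
  refine ⟨wt π r, h2, ?_, h3, hyp_iff.2 h6, LinearMap.funLeft ℝ ℝ π ∘ₗ R, ?_⟩
  · simpa [gen] using h5
  · have h7 := hypCone_comp (e := 1) (LinearMap.funLeft ℝ ℝ π) fun x => (h4 x).symm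
    rw [(comp_hyp hp' hrd' hr (ho' _ h1)).2, hK] at h7
    rw [cone_eq h6, LinearMap.coe_comp, Set.preimage_comp]
    refine Eq.trans (congrArg _ h7.symm) ?_
    rw [← Set.preimage_comp, ← LinearMap.coe_comp, hR]
    rfl

end Vale.Agent.N256b
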