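import Vale.Agent.N256b.Br

/-! P256: linear substitutions with values in the open cone, stability, positive coefficients. -/

namespace Vale.Agent.N256b

open MvPolynomial Vale.Agent.P256 Vale.Agent.N256

variable {n m d : ℕ} {p : MvPolynomial (Fin n) ℝ} {e : Fin n → ℝ}

theorem K_sum (hp : IsHyperbolic p e) {ι : Type} (s : Finset ι) (v : ι → Fin n → ℝ)
    (h : ∀ i ∈ s, v i ∈ hypCone p e) : ∑ i ∈ s, v i ∈ hypCone p e :=
  Finset.sum_induction _ (· ∈ hypCone p e) (fun _ _ => K_add hp) (K_zero hp) h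

theorem open_comb (hp : IsHyperbolic p e) {v : Fin m → Fin n → ℝ} (hv : ∀ j, InOpen p e (v j))
    {y : Fin m → ℝ} (hy : ∀ j, 0 ≤ y j) {k : Fin m} (hk : 0 < y k) :
    InOpen p e (∑ j, y j • v j) := by
  rw [← Finset.sum_erase_add _ _ (Finset.mem_univ k)]
  exact K_add_open hp (K_sum hp _ _ fun j _ => K_smul hp ((hv j).mem hp) (hy j))
    ((hv k).smul hp hk)

theorem cone_le {a : Fin n → ℝ} (hp : IsHyperbolic p e) (ha : InOpen p e a) :
    hypCone p e ⊆ hypCone p a := by
  obtain ⟨d, hd⟩ := hp.1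
  intro x hx
  rw [mem_hypCone_iff hd]
  intro t ht
  simpa using K_add_open hp hx (ha.smul hp ht) 0 le_rfl

theorem cone_move {a : Fin n → ℝ} (hp : IsHyperbolic p e) (ha : InOpen p e a) :
    hypCone p a = hypCone p e :=
  (cone_le (garding1 hp ha) (open_symm hp ha (e_inOpen hp))).antisymm (cone_le hp ha)

/-- A basis in the open cone. -/
theorem exists_basis (hp : IsHyperbolic p e) : ∃ v : Fin n → Fin n → ℝ,
    (∀ k, InOpen p e (v k)) ∧ ∀ x : Fin n → ℝ, ∃ y : Fin n → ℝ, ∑ k, y k • v k = x := by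
  obtain ⟨δ, hδ, hb⟩ := Metric.isOpen_iff.1 (isOpen_inOpen hp) e (e_inOpen hp)
  obtain ⟨ε, h0, h1, h2⟩ : ∃ ε : ℝ, 0 < ε ∧ ε < δ ∧ ∑ i, e i + ε ≠ 0 := by
    by_cases h : ∑ i, e i + δ / 2 = 0
    · exact ⟨δ / 3, by linarith, by linarith, fun h3 => by linarith⟩
    · exact ⟨δ / 2, by linarith, by linarith, h⟩
  refine ⟨fun k => e + Pi.single k ε, fun k => hb ?_, fun x => ?_⟩
  · rw [Metric.mem_ball, dist_self_add_left, Pi.norm_single, Real.norm_eq_abs, abs_of_pos h0]
    exact h1
  · obtain ⟨s, hs⟩ : ∃ s, s = (∑ i, x i) / (∑ i, e i + ε) := ⟨_, rfl⟩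
    refine ⟨fun k => (x k - s * e k) / ε, ?_⟩
    have h3 : ∑ k, (x k - s * e k) / ε = s := by
      rw [← Finset.sum_div, Finset.sum_sub_distrib, ← Finset.mul_sum, div_eq_iff h0.ne']
      have := (eq_div_iff h2).1 hs
      linarith
    simp only [smul_add, Finset.sum_add_distrib]
    rw [← Finset.sum_smul, h3]
    funext i
    simp only [Pi.add_apply, Pi.smul_apply, Finset.sum_apply, smul_eq_mul, Pi.single_apply,
      mul_ite, mul_zero, Finset.sum_ite_eq, Finset.mem_univ, if_true]
    field_simp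
    ring

section comp

variable {r : MvPolynomial (Fin m) ℝ} {L : (Fin m → ℝ) →ₗ[ℝ] (Fin n → ℝ)}

theorem line_comp (hr : ∀ y, eval y r = eval (L y) p) (x y : Fin m → ℝ) :
    line r x y = line p (L x) (L y) := by
  apply Polynomial.funext
  intro t
  rw [eval_line, eval_line, hr, map_add, map_smul]

theorem comp_ne (hp : IsHyperbolic p e) (hr : ∀ y, eval y r = eval (L y) p) (z : Fin m → ℂ)
    (h : InOpen p e (L fun j => (z j).im)) : aeval z r ≠ 0 := by
  have h1 := (garding1 hp h).ne_zero (L fun j => (z j).re) Complex.I (by simp)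
  rw [← aeval_line, ← line_comp hr, aeval_line] at h1
  refine fun h2 => h1 (Eq.trans ?_ h2)
  congr 2
  funext j
  rw [mul_comm, Complex.re_add_im]

theorem comp_hyp (hp : IsHyperbolic p e) (hd : r.IsHomogeneous d)
    (hr : ∀ y, eval y r = eval (L y) p) {a : Fin m → ℝ} (h : InOpen p e (L a)) :
    IsHyperbolic r a ∧ hypCone r a = L ⁻¹' hypCone p e := by
  have h1 := garding1 hp h
  refine ⟨hyp_of_splits hd (hr a ▸ h1.2.1) fun x => ?_, ?_⟩
  · rw [line_comp hr]
    exact h1.splits _
  · rw [hypCone_comp L hr, cone_move hp h]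

end comp

/-- No zeros with imaginary part in the closed orthant without the origin. -/
def SS (r : MvPolynomial (Fin m) ℝ) : Prop :=
  ∀ z : Fin m → ℂ, (∀ j, 0 ≤ (z j).im) → (∃ j, 0 < (z j).im) → aeval z r ≠ 0

theorem deriv_gline (r : MvPolynomial (Fin m) ℝ) (z : Fin m → ℂ) (j : Fin m) :
    Polynomial.derivative (gline r z fun i => ((Pi.single j 1 : Fin m → ℝ) i : ℂ)) =
      gline (pderiv j r) z fun i => ((Pi.single j 1 : Fin m → ℝ) i : ℂ) := by
  unfold gline
  induction r using MvPolynomial.induction_on with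
  | C a => simp
  | add p q hp hq => simp only [map_add, hp, hq]
  | mul_X p i hp =>
    rw [map_mul, Polynomial.derivative_mul, hp, pderiv_mul, map_add, map_mul, map_mul, aeval_X]
    congr 2
    rcases eq_or_ne i j with rfl | h
    · simp
    · simp [h, pderiv_X_of_ne h]

theorem logder {r : MvPolynomial (Fin m) ℝ} (hd : r.IsHomogeneous (d + 1)) (hr : SS r)
    (j : Fin m) {z : Fin m → ℂ} (hz : ∀ i, 0 ≤ (z i).im) (hz' : ∃ i, 0 < (z i).im) :
    (aeval z (pderiv j r) / aeval z r).im < 0 := by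
  have h1 : eval (Pi.single j 1 : Fin m → ℝ) r ≠ 0 := by
    intro h
    refine hr (fun i => Complex.I * ((Pi.single j 1 : Fin m → ℝ) i : ℂ)) (fun i => ?_) ⟨j, ?_⟩ ?_
    · simp only [Complex.mul_im, Complex.I_re, Complex.I_im, Complex.ofReal_re, Pi.single_apply]
      split_ifs <;> simp
    · simp
    · rw [aeval_smul hd, aeval_ofReal, h]
      simp
  obtain ⟨f, hf⟩ : ∃ f, f = gline r z fun i => ((Pi.single j 1 : Fin m → ℝ) i : ℂ) := ⟨_, rfl⟩
  have h2 : f.natDegree = d + 1 := hf ▸ (gline_leading hd z _ h1).1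
  have h3 : f.eval 0 = aeval z r := by simp [hf, eval_gline]
  have h4 : f.derivative.eval 0 = aeval z (pderiv j r) := by
    rw [hf, deriv_gline, eval_gline]
    simp
  have hs := IsAlgClosed.splits f
  rw [← h3, ← h4, hs.eval_derivative_div_eval_of_ne_zero (h3 ▸ hr z hz hz')]
  have h5 : ∀ t ∈ f.roots, t.im < 0 := by
    intro t ht
    by_contra h
    have h6 := (Polynomial.mem_roots'.1 ht).2
    rw [Polynomial.IsRoot.def, hf, eval_gline] at h6
    have h7 : ∀ i, (z i).im ≤ (z i + t * ((Pi.single j 1 : Fin m → ℝ) i : ℂ)).im := fun i => by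
      simp only [Complex.add_im, Complex.mul_im, Complex.ofReal_re, Complex.ofReal_im,
        Pi.single_apply]
      split_ifs <;> simp [not_lt.1 h]
    obtain ⟨i, hi⟩ := hz'
    exact hr _ (fun i => (hz i).trans (h7 i)) ⟨i, hi.trans_le (h7 i)⟩ h6
  have h8 : f.roots ≠ 0 := by
    intro h
    have := hs.natDegree_eq_card_roots
    rw [h, h2] at this
    simp at this
  have h9 : ((f.roots.map fun t => 1 / (0 - t)).sum).im =
      (f.roots.map fun t => (1 / (0 - t)).im).sum := by
    have := map_multiset_sum Complex.imAddGroupHom (f.roots.map fun t => 1 / (0 - t))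
    rwa [Multiset.map_map] at this
  rw [h9]
  have h10 := Multiset.sum_lt_sum_of_nonempty (f := fun t : ℂ => (1 / (0 - t)).im)
    (g := fun _ => (0 : ℝ)) h8 fun t ht => by
      have h11 := h5 t ht
      have h12 : t ≠ 0 := fun h => by simp [h] at h11
      rw [zero_sub, one_div, Complex.inv_im, Complex.neg_im, neg_neg]
      exact div_neg_of_neg_of_pos h11 (Complex.normSq_pos.2 (neg_ne_zero.2 h12))
  simpa using h10

theorem coeff_pos : ∀ (d : ℕ) (r : MvPolynomial (Fin m) ℝ), r.IsHomogeneous d → SS r →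
    0 < eval 1 r → ∀ α : Fin m →₀ ℕ, α.degree = d → 0 < coeff α r := by
  intro d
  induction d with
  | zero =>
    intro r hd _ h1 α hα
    rw [← totalDegree_zero_iff_isHomogeneous, totalDegree_eq_zero_iff_eq_C] at hd
    rw [hd, eval_C] at h1
    rwa [(Finsupp.degree_eq_zero_iff α).1 hα]
  | succ d ih =>
    intro r hd hr h1 α hα
    obtain ⟨j, hj⟩ : ∃ j, α j ≠ 0 := by
      by_contra h
      push Not at h
      rw [show α = 0 from Finsupp.ext h] at hα
      simp at hα
    obtain ⟨β, rfl⟩ : ∃ β, α = β + Finsupp.single j 1 :=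
      ⟨α - Finsupp.single j 1, (tsub_add_cancel_of_le (Finsupp.single_le_iff.2
        (Nat.one_le_iff_ne_zero.2 hj))).symm⟩
    have hd' : (pderiv j r).IsHomogeneous d := hd.pderiv
    have h2 := ih _ hd' (fun z hz hz' h => by
      have := logder hd hr j hz hz'
      simp [h] at this) (by
      have h3 := logder hd hr j (z := fun i => Complex.I * ((1 : Fin m → ℝ) i : ℂ))
        (fun i => by simp) ⟨j, by simp⟩
      have h4 : ((eval 1 r : ℝ) : ℂ) ≠ 0 := by exact_mod_cast h1.ne'
      rw [aeval_smul hd, aeval_smul hd', aeval_ofReal, aeval_ofReal,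
        show Complex.I ^ d * ((eval 1 (pderiv j r) : ℝ) : ℂ) /
          (Complex.I ^ (d + 1) * ((eval 1 r : ℝ) : ℂ)) =
          ((-(eval 1 (pderiv j r) / eval 1 r) : ℝ) : ℂ) * Complex.I by
            push_cast
            field_simp
            rw [pow_succ]
            ring_nf
            simp] at h3
      simp only [Complex.mul_im, Complex.ofReal_re, Complex.I_im, Complex.ofReal_im, mul_one,
        zero_mul, add_zero, Left.neg_neg_iff] at h3
      exact (div_pos_iff_of_pos_right h1).1 h3) β (by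
      rw [map_add, Finsupp.degree_single] at hα
      omega)
    rw [coeff_pderiv] at h2
    exact (mul_pos_iff_of_pos_right (by positivity)).1 h2

end Vale.Agent.N256b
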