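import Vale.Agent.N256b.Sym
import Mathlib.RingTheory.MvPolynomial.Symmetric.FundamentalTheorem
import Mathlib.RingTheory.Polynomial.Vieta

/-! P256: orthogonally invariant polynomials on symmetric matrices. -/

namespace Vale.Agent.N256b

open MvPolynomial Vale.Agent.P256 Vale.Agent.N256 Finset Matrix

variable {n : ℕ}

theorem hom_of_smul {σ : Type} {q : MvPolynomial σ ℝ} {d : ℕ}
    (h : ∀ (c : ℝ) (x : σ → ℝ), eval (c • x) q = c ^ d * eval x q) : q.IsHomogeneous d := by
  have key : homogeneousComponent d q = q := by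
    refine MvPolynomial.funext fun x => ?_
    have h1 : ∑ k ∈ range (q.totalDegree + 1),
        Polynomial.monomial k (eval x (homogeneousComponent k q)) =
        Polynomial.monomial d (eval x q) := by
      refine Polynomial.funext fun c => ?_
      rw [Polynomial.eval_monomial, mul_comm, ← h, Polynomial.eval_finsetSum]
      conv_rhs => rw [← sum_homogeneousComponent q, map_sum]
      refine sum_congr rfl fun k _ => ?_
      rw [Polynomial.eval_monomial, mul_comm]
      exact (PL.aeval_mul_of_isHomogeneous (homogeneousComponent_isHomogeneous k q) c x).symm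
    have h2 := congrArg (Polynomial.coeff · d) h1
    simp only [Polynomial.finsetSum_coeff, Polynomial.coeff_monomial, sum_ite_eq', mem_range,
      if_true] at h2
    split_ifs at h2 with h3
    · exact h2
    · rw [homogeneousComponent_eq_zero _ _ (by omega), map_zero, h2]
  exact key ▸ homogeneousComponent_isHomogeneous d q

/-- `l` is the vector of eigenvalues of the matrix of `x`. -/
def Dg (x : Sym2 (Fin n) → ℝ) (l : Fin n → ℝ) : Prop :=
  ∃ U : Matrix (Fin n) (Fin n) ℝ, Uᵀ * U = 1 ∧ mat x = U * diagonal l * Uᵀ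

theorem exists_dg (x : Sym2 (Fin n) → ℝ) : ∃ l, Dg x l := by
  have h : (mat x).IsHermitian := by
    ext i j
    simp [mat, Sym2.eq_swap]
  refine ⟨h.eigenvalues, h.eigenvectorUnitary, ?_, ?_⟩
  · simpa [star_eq_conjTranspose] using Unitary.coe_star_mul_self h.eigenvectorUnitary
  · simpa [star_eq_conjTranspose] using h.spectral_theorem

theorem Dg.charpoly {x : Sym2 (Fin n) → ℝ} {l : Fin n → ℝ} (h : Dg x l) :
    (mat x).charpoly = ∏ i, (Polynomial.X - Polynomial.C (l i)) := by
  obtain ⟨U, h1, h2⟩ := h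
  rw [h2, charpoly_mul_comm, ← mul_assoc, h1, one_mul, charpoly_diagonal]

theorem Dg.aff {x e : Sym2 (Fin n) → ℝ} {l : Fin n → ℝ} (h : Dg x l) (he : mat e = 1) (a c : ℝ) :
    Dg (a • e + c • x) (a • 1 + c • l) := by
  obtain ⟨U, h1, h2⟩ := h
  refine ⟨U, h1, ?_⟩
  have h3 : mat (a • e + c • x) = a • mat e + c • mat x := rfl
  have h4 : diagonal (a • (1 : Fin n → ℝ) + c • l) = a • 1 + c • diagonal l := by
    ext i j
    by_cases h : i = j <;> simp [h, one_apply]
  rw [h3, h4, he, h2]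
  simp only [Matrix.mul_add, Matrix.add_mul, Matrix.mul_smul, Matrix.smul_mul, Matrix.mul_one,
    mul_eq_one_comm.1 h1]

theorem exists_spec {P : MvPolynomial (Fin n) ℝ} (hs : P.IsSymmetric) :
    ∃ q : MvPolynomial (Sym2 (Fin n)) ℝ, ∀ x l, Dg x l → eval x q = eval l P := by
  obtain ⟨Q, hQ⟩ := esymmAlgHom_surjective ℝ (σ := Fin n) (n := n) (by simp) ⟨P, hs⟩
  have h1 : aeval (fun i : Fin n => esymm (Fin n) ℝ (i + 1)) Q = P := by
    rw [← esymmAlgHom_apply, hQ]
  refine ⟨aeval (fun i : Fin n => (-1) ^ (i.1 + 1) * (Matrix.of fun a b : Fin n =>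
    (X s(a, b) : MvPolynomial (Sym2 (Fin n)) ℝ)).charpoly.coeff (n - (i + 1))) Q,
    fun x l h => ?_⟩
  rw [← h1, lr_eval_aeval, lr_eval_aeval]
  congr 2
  funext i
  have h2 : (Matrix.of fun a b : Fin n => (X s(a, b) : MvPolynomial (Sym2 (Fin n)) ℝ)).map
      (eval x) = mat x := by
    ext a b
    simp [mat]
  have h3 := Multiset.prod_X_sub_C_coeff (univ.val.map l) (k := n - (i + 1)) (by simp)
  have h4 : n - (n - (i + 1)) = i + 1 := by omega
  rw [Multiset.map_map, Multiset.card_map, card_val, card_fin, h4] at h3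
  rw [map_mul, ← Polynomial.coeff_map, ← charpoly_map, h2, h.charpoly, map_pow, map_neg, map_one,
    Finset.prod_eq_multiset_prod]
  refine Eq.trans (congrArg _ h3) ?_
  rw [← mul_assoc, ← mul_pow, ← aeval_esymm_eq_multiset_esymm (Fin n) ℝ]
  simp

/-- The diagonal matrices. -/
noncomputable def dg (n : ℕ) : (Fin n → ℝ) →ₗ[ℝ] (Sym2 (Fin n) → ℝ) where
  toFun l := Sym2.lift ⟨fun i j => diagonal l i j, fun i j => by
    simp only [diagonal_apply]
    split_ifs with h1 h2 h2
    · rw [h1]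
    · exact absurd h1.symm h2
    · exact absurd h2.symm h1
    · rfl⟩
  map_add' a b := by
    funext s
    induction s using Sym2.ind with
    | h i j => by_cases h : i = j <;> simp [h]
  map_smul' c a := by
    funext s
    induction s using Sym2.ind with
    | h i j => simp [diagonal_smul]

theorem mat_dg (l : Fin n → ℝ) : mat (dg n l) = diagonal l := rfl

theorem exists_inv {P : MvPolynomial (Fin n) ℝ} (hs : P.IsSymmetric) (hP : IsHyperbolic P 1) :
    ∃ (q : MvPolynomial (Sym2 (Fin n)) ℝ) (e : Sym2 (Fin n) → ℝ), mat e = 1 ∧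
      (∀ U ∈ orthogonalGroup (Fin n) ℝ, ∀ x y, mat y = U * mat x * Uᵀ → eval y q = eval x q) ∧
      Hyperbolic q e ∧ dg n ⁻¹' cone q e = hypCone P 1 := by
  obtain ⟨q, hq⟩ := exists_spec hs
  obtain ⟨d, hd⟩ := hP.1
  have he : mat (dg n 1) = 1 := mat_dg 1
  have h0 : ∀ l, Dg (dg n l) l := fun l => ⟨1, by simp, by simp [mat_dg]⟩
  have hr : ∀ x l, Dg x l → restr q (dg n 1) x = restr P 1 l := fun x l h => by
    refine Polynomial.funext fun t => ?_
    have := hq _ _ (h.aff he t (-1))
    rwa [eval_restr, eval_restr, sub_eq_add_neg, sub_eq_add_neg, ← neg_one_smul ℝ x,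
      ← neg_one_smul ℝ l]
  refine ⟨q, dg n 1, he, fun U hU x y h => ?_, ⟨⟨d, hom_of_smul fun c x => ?_⟩, ?_, fun x => ?_⟩,
    ?_⟩
  · obtain ⟨l, V, h1, h2⟩ := exists_dg x
    have h3 := (mem_orthogonalGroup_iff' _ _).1 hU
    rw [hq x l ⟨V, h1, h2⟩]
    refine hq y l ⟨U * V, ?_, ?_⟩
    · rw [transpose_mul, mul_assoc, ← mul_assoc Uᵀ, h3, one_mul, h1]
    · rw [h, h2, transpose_mul]
      simp only [mul_assoc]
  · obtain ⟨l, h⟩ := exists_dg x
    have := hq _ _ (h.aff he 0 c)
    rw [zero_smul, zero_smul, zero_add, zero_add, eval_smul' hd] at this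
    rw [this, hq x l h]
  · rw [hq _ _ (h0 1)]
    exact hP.2.1
  · obtain ⟨l, h⟩ := exists_dg x
    rw [hr x l h]
    exact (hyp_iff.2 hP).2.2 l
  · rw [← cone_eq hP]
    ext l
    rw [Set.mem_preimage, cone, cone, Set.mem_ofPred_eq, Set.mem_ofPred_eq, hr _ _ (h0 l)]

end Vale.Agent.N256b
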