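import Vale.Agent.N256b.Pol
import Mathlib.Algebra.Order.Rearrangement

/-! P256: every hyperbolicity cone without lines is a linear section of the cone of a symmetric
polynomial in one more variable. -/

namespace Vale.Agent.N256b

open MvPolynomial Vale.Agent.P256 Vale.Agent.N256 Finset

variable {n d : ℕ} {p : MvPolynomial (Fin n) ℝ} {e : Fin n → ℝ}

theorem tr_strict (hp : IsHyperbolic p e) (hpt : ∀ x ∈ hypCone p e, -x ∈ hypCone p e → x = 0)
    {x : Fin n → ℝ} (hx : x ∈ hypCone p e) (h0 : x ≠ 0) : 0 < dd p e x := by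
  refine (tr_nonneg hp hx).lt_of_ne fun h => h0 (hpt x hx ?_)
  obtain ⟨d, hd⟩ := hp.1
  have hs := splits_line_dir hp hx e
  have h1 : (line p e x).eval 0 = eval e p := by simp [eval_line]
  have h2 := hs.eval_derivative_div_eval_of_ne_zero (x := 0) (h1 ▸ hp.2.1.ne')
  rw [eval_derivative_line, zero_smul, add_zero, ← h, zero_div] at h2
  have h3 : (line p e x).roots = 0 := by
    by_contra h4
    have h5 := Multiset.sum_lt_sum_of_nonempty (f := fun _ => (0 : ℝ))
      (g := fun t : ℝ => 1 / (0 - t)) h4 fun t ht => by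
        have h6 := (Polynomial.mem_roots'.1 ht).2
        rw [Polynomial.IsRoot.def, eval_line] at h6
        refine one_div_pos.2 (sub_pos.2 (not_le.1 fun h7 => ?_))
        have h8 := K_add_open hp (K_smul hp hx h7) (e_inOpen hp) 0 le_rfl
        rw [zero_smul, add_zero, add_comm] at h8
        exact h8 h6
    rw [← h2] at h5
    simp at h5
  have h4 := hs.natDegree_eq_card_roots
  rw [h3, Multiset.card_zero] at h4
  have h5 : ∀ t : ℝ, eval (e + t • x) p = eval e p := fun t => by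
    rw [← eval_line, ← h1, Polynomial.eq_C_of_natDegree_eq_zero h4]
    simp
  rw [mem_hypCone_iff hd]
  intro t ht
  have h6 : -x + t • e = t • (e + (-t⁻¹) • x) := by
    rw [smul_add, smul_smul, mul_neg, mul_inv_cancel₀ ht.ne', neg_one_smul, add_comm]
  rw [h6, eval_smul' hd, h5]
  exact mul_ne_zero (pow_ne_zero _ ht.ne') hp.2.1.ne'

theorem exists_tr (hp : IsHyperbolic p e) (hpt : ∀ x ∈ hypCone p e, -x ∈ hypCone p e → x = 0) :
    ∃ (s : (Fin n → ℝ) →L[ℝ] ℝ), ∀ x ∈ hypCone p e, ‖x‖ ≤ s x := by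
  obtain ⟨s, hs⟩ : ∃ s : (Fin n → ℝ) →L[ℝ] ℝ, ∀ x, s x = dd p e x :=
    ⟨dotL fun i => eval e (pderiv i p), fun _ => rfl⟩
  obtain ⟨δ, hδ, h⟩ := ((isCompact_sphere (0 : Fin n → ℝ) 1).inter_left
    (isClosed_K hp)).exists_forall_le' s.continuous.continuousOn (a := 0) fun b hb => by
      rw [hs]
      refine tr_strict hp hpt hb.1 fun h0 => ?_
      simpa [h0] using hb.2
  refine ⟨δ⁻¹ • s, fun x hx => ?_⟩
  rcases eq_or_ne x 0 with rfl | h0
  · simp
  · have h1 := norm_pos_iff.2 h0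
    have h2 := h (‖x‖⁻¹ • x) ⟨K_smul hp hx (inv_pos.2 h1).le, by
      simp [norm_smul, h1.ne']⟩
    rw [map_smul, smul_eq_mul, le_inv_mul_iff₀ h1] at h2
    rw [_root_.smul_apply, smul_eq_mul, le_inv_mul_iff₀ hδ, mul_comm]
    exact h2

/-- Partial sums. -/
noncomputable def cc (j : Fin (n + 1)) (k : Fin n) : ℝ :=
  (∑ i : Fin (n + 1), if (k : ℕ) < i then (i : ℝ) else 0) + if (k : ℕ) < j then 1 else 0

theorem cc_pos (j : Fin (n + 1)) (k : Fin n) : 0 < cc j k := by
  refine add_pos_of_pos_of_nonneg (sum_pos' (fun i _ => ?_) ⟨Fin.last n, mem_univ _, ?_⟩) ?_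
  · split_ifs <;> positivity
  · have := k.2
    rw [Fin.val_last, if_pos this]
    exact_mod_cast (by omega : 0 < n)
  · split_ifs <;> norm_num

/-- A strictly decreasing vector. -/
noncomputable def zz (n : ℕ) (j : Fin (n + 1)) : ℝ :=
  (if j = 0 then 1 + ∑ i : Fin (n + 1), (i : ℝ) else 0) - j

theorem zz_cc : ∑ j, zz n j • cc j = 0 := by
  funext k
  have h1 : ∑ j, zz n j = 1 := by simp [zz, sum_sub_distrib]
  simp only [Finset.sum_apply, Pi.smul_apply, smul_eq_mul, cc, mul_add, sum_add_distrib]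
  rw [← sum_mul, h1, one_mul, ← sum_add_distrib]
  refine sum_eq_zero fun j _ => ?_
  split_ifs with h
  · have : j ≠ 0 := fun h0 => by simp [h0] at h
    simp [zz, this]
  · simp

theorem zz_anti {i j : Fin (n + 1)} (h : i < j) : zz n j + 1 ≤ zz n i := by
  have h1 : j ≠ 0 := fun h0 => by simp [h0] at h
  have h2 : ((i : ℕ) : ℝ) + 1 ≤ (j : ℕ) := by exact_mod_cast h
  have h3 : (0 : ℝ) ≤ if i = 0 then 1 + ∑ i : Fin (n + 1), (i : ℝ) else 0 := by
    split_ifs <;> positivity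
  simp only [zz, if_neg h1]
  linarith

theorem cc_surj (x : Fin n → ℝ) : ∃ y : Fin (n + 1) → ℝ, ∑ j, y j • cc j = x := by
  refine ⟨∑ k, x k • (Pi.single k.succ 1 - Pi.single k.castSucc 1), ?_⟩
  rw [← Fintype.linearCombination_apply, map_sum]
  funext l
  simp only [map_smul, map_sub, Fintype.linearCombination_apply_single, one_smul,
    Finset.sum_apply, Pi.smul_apply, Pi.sub_apply, cc, add_sub_add_left_eq_sub, Fin.val_succ,
    Fin.val_castSucc, smul_eq_mul]
  rw [sum_eq_single l (fun k _ hk => ?_) (by simp)]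
  · simp
  · have : (k : ℕ) ≠ l := fun h => hk (Fin.ext h)
    by_cases h : (l : ℕ) < k
    · rw [if_pos h, if_pos (by omega)]
      simp
    · rw [if_neg h, if_neg (by omega)]
      simp

theorem cc_perm {y : Fin (n + 1) → ℝ} (hy : Antitone y) (σ : Equiv.Perm (Fin (n + 1)))
    (k : Fin n) : ∑ j, y j * cc j k ≤ ∑ j, y (σ j) * cc j k := by
  have h : Monotone fun j => cc j k := fun i j hij => by
    refine add_le_add le_rfl ?_
    have : (i : ℕ) ≤ j := hij
    split_ifs with h1 h2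
    · exact le_rfl
    · omega
    · exact zero_le_one
    · exact le_rfl
  simpa only [mul_comm] using (h.antivary hy).sum_mul_le_sum_mul_comp_perm (σ := σ)

/-- Symmetrisation. -/
theorem exists_sym (hp : IsHyperbolic p e) (hpt : ∀ x ∈ hypCone p e, -x ∈ hypCone p e → x = 0)
    (hn : 0 < n) : ∃ P : MvPolynomial (Fin (n + 1)) ℝ, P.IsSymmetric ∧ (∀ α, 0 ≤ coeff α P) ∧
      Stable P ∧ IsHyperbolic P 1 ∧
      ∃ f : (Fin n → ℝ) →ₗ[ℝ] (Fin (n + 1) → ℝ), f ⁻¹' hypCone P 1 = hypCone p e := by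
  obtain ⟨d, hd⟩ := hp.1
  obtain ⟨v, hv, hsp⟩ := exists_basis hp
  obtain ⟨s, hs⟩ := exists_tr hp hpt
  obtain ⟨L, hL⟩ : ∃ L : (Fin (n + 1) → ℝ) →ₗ[ℝ] (Fin n → ℝ),
    L = Fintype.linearCombination ℝ v ∘ₗ Fintype.linearCombination ℝ cc := ⟨_, rfl⟩
  have hL1 : ∀ y, L y = ∑ k, (∑ j, y j * cc j k) • v k := fun y => by
    rw [hL, LinearMap.comp_apply, Fintype.linearCombination_apply ℝ cc,
      Fintype.linearCombination_apply]
    simp only [Finset.sum_apply, Pi.smul_apply, smul_eq_mul]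
  have ho : ∀ y : Fin (n + 1) → ℝ, (∀ j, 0 ≤ y j) → (∃ j, 0 < y j) → InOpen p e (L y) := by
    rintro y hy ⟨j, hj⟩
    rw [hL1]
    exact open_comb hp hv (k := ⟨0, hn⟩)
      (fun k => sum_nonneg fun i _ => mul_nonneg (hy i) (cc_pos i k).le)
      (sum_pos' (fun i _ => mul_nonneg (hy i) (cc_pos i _).le)
        ⟨j, mem_univ _, mul_pos hj (cc_pos j _)⟩)
  have h1 := ho 1 (fun _ => zero_le_one) ⟨0, zero_lt_one⟩
  obtain ⟨r, hr, hrd⟩ := exists_comp p L
  obtain ⟨hrh, hrc⟩ := comp_hyp hp (hrd d hd) hr h1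
  obtain ⟨P, hP⟩ : ∃ P, P = ∏ σ : Equiv.Perm (Fin (n + 1)), rename σ r := ⟨_, rfl⟩
  have hPd : P.IsHomogeneous (∑ _σ : Equiv.Perm (Fin (n + 1)), d) :=
    hP ▸ IsHomogeneous.prod _ _ _ fun σ _ => (hrd d hd).rename_isHomogeneous
  have hss : SS P := by
    rintro z hz ⟨j, hj⟩
    rw [hP, map_prod, prod_ne_zero_iff]
    intro σ _
    rw [aeval_rename]
    exact comp_ne hp hr _ (ho _ (fun i => hz _) ⟨σ.symm j, by simpa using hj⟩)
  have hst : Stable P := fun z hz => hss z (fun j => (hz j).le) ⟨0, hz 0⟩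
  have hP1 : 0 < eval 1 P := by
    rw [hP, map_prod]
    exact prod_pos fun σ _ => by
      rw [eval_rename]
      exact hrh.2.1
  have hmem : ∀ y, y ∈ hypCone P 1 ↔ ∀ σ : Equiv.Perm (Fin (n + 1)), L (y ∘ σ) ∈ hypCone p e := by
    intro y
    simp only [← Set.mem_preimage, ← hrc]
    simp only [hypCone, Set.mem_ofPred_eq, hP, map_prod, prod_eq_zero_iff, mem_univ, true_and,
      eval_rename, forall_exists_index]
    exact forall_comm
  obtain ⟨R, hR⟩ := L.exists_rightInverse_of_surjective (LinearMap.range_eq_top.2 fun x => by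
    obtain ⟨y, rfl⟩ := hsp x
    obtain ⟨u, rfl⟩ := cc_surj y
    exact ⟨u, by rw [hL]; rfl⟩)
  obtain ⟨c, hc0, hc⟩ : ∃ c : ℝ, 0 ≤ c ∧ ∀ x j, |R x j| ≤ c * ‖x‖ :=
    ⟨‖LinearMap.toContinuousLinearMap R‖, norm_nonneg _, fun x j =>
      (norm_le_pi_norm (R x) j).trans ((LinearMap.toContinuousLinearMap R).le_opNorm x)⟩
  obtain ⟨f, hf⟩ : ∃ f : (Fin n → ℝ) →ₗ[ℝ] (Fin (n + 1) → ℝ),
      ∀ x, f x = R x + (2 * c * s x) • zz n :=
    ⟨R + ((2 * c) • (s : (Fin n → ℝ) →ₗ[ℝ] ℝ)).smulRight (zz n), fun x => by simp⟩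
  have hLf : ∀ x, L (f x) = x := fun x => by
    have h2 : L (zz n) = 0 := by
      rw [hL, LinearMap.comp_apply, Fintype.linearCombination_apply ℝ cc, zz_cc, map_zero]
    rw [hf, map_add, map_smul, h2, smul_zero, add_zero]
    exact LinearMap.congr_fun hR x
  refine ⟨P, fun τ => ?_, fun α => ?_, hst, hyp_of_stable hPd hst hP1, f, ?_⟩
  · rw [hP, map_prod]
    exact Fintype.prod_equiv (Equiv.mulLeft τ) _ _ fun σ => by
      rw [rename_rename]
      rfl
  · by_cases h : α.degree = ∑ _σ : Equiv.Perm (Fin (n + 1)), d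
    · exact (coeff_pos _ P hPd hss hP1 α h).le
    · exact (hPd.coeff_eq_zero h).ge
  · ext x
    rw [Set.mem_preimage, hmem]
    refine ⟨fun h => hLf x ▸ h 1, fun hx σ => ?_⟩
    have ha : Antitone (f x) := fun i j hij => by
      rcases hij.eq_or_lt with rfl | hij
      · exact le_rfl
      · have h2 := abs_le.1 (hc x i)
        have h3 := abs_le.1 (hc x j)
        have h4 := mul_le_mul_of_nonneg_left (hs x hx) hc0
        have h5 : 0 ≤ c * s x := (mul_nonneg hc0 (norm_nonneg x)).trans h4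
        have h6 := mul_le_mul_of_nonneg_left (zz_anti hij) h5
        simp only [hf, Pi.add_apply, Pi.smul_apply, smul_eq_mul]
        nlinarith
    have h2 : L (f x ∘ σ) = x + ∑ k, (∑ j, f x (σ j) * cc j k - ∑ j, f x j * cc j k) • v k := by
      simp only [sub_smul, sum_sub_distrib]
      rw [← hL1 (f x), hLf, hL1, add_sub_cancel]
      rfl
    rw [h2]
    exact K_add hp hx (K_sum hp _ _ fun k _ =>
      K_smul hp ((hv k).mem hp) (sub_nonneg.2 (cc_perm ha σ k)))

end Vale.Agent.N256b
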